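import Vale.Agent.P031.Main
import Vale.Agent.P031.Collide
import Vale.Agent.P031.Sieve

/-!
P031, Q2: the ratio of totient value counts tends to `c`.
-/

open Filter
open scoped Topology

/-- For every `c > 1`, the number of totient values up to `c * x` is asymptotic to `c` times the
number up to `x`. -/
theorem Vale.Agent.Results.P031.TotientRatio.result :
    ∀ c : ℝ, 1 < c → Tendsto (fun x : ℝ =>
      (Nat.card {v : ℕ | (v : ℝ) ≤ c * x ∧ ∃ n : ℕ, 0 < n ∧ Nat.totient n = v} : ℝ)
        / (Nat.card {v : ℕ | (v : ℝ) ≤ x ∧ ∃ n : ℕ, 0 < n ∧ Nat.totient n = v} : ℝ))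
      atTop (𝓝 c) :=
  fun c hc => Vale.Agent.P031.ratio_tendsto
    (Vale.Agent.P031.collide Vale.Agent.P031.sieve Vale.Agent.P031.sieve_log) c hc
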